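import Vale.Agent.P075.Step
import Vale.Agent.P075.Telescope
import Vale.Agent.P075.Reduce

/-!
# P075, Q2: the dyadic triangular Hilbert form is bounded on `L³ × L³ × L³`
-/

namespace Vale.Agent.Results.P075.DyadicTriangularBounded

open Vale.Agent.P075

/-- One constant works for all finite sets of scales, all coefficients of modulus at most `1` and
all bounded compactly supported measurable functions. -/
theorem result :
    ∃ C : ℝ, ∀ (S : Finset ℤ) (ε : ℤ → ℝ), (∀ k ∈ S, |ε k| ≤ 1) →
      ∀ F : Fin 3 → ℝ → ℝ → ℝ, (∀ v, Measurable (Function.uncurry (F v))) →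
        (∀ v, ∃ M, ∀ x y, |F v x y| ≤ M) → (∀ v, HasCompactSupport (Function.uncurry (F v))) →
        |∑ k ∈ S, ε k * layer k F| ≤ C * ∏ v, norm3 (F v) :=
  dyadicBounded_of_discrete (discreteBound_of_stepBound (by norm_num) stepBound)

end Vale.Agent.Results.P075.DyadicTriangularBounded
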